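import Vale.Agent.P251EJ76.Defs
import Vale.Agent.P251EJ13.Rat

/-!
# P251EJ (59): the kernel of the rational Hurewicz map is torsion, for every object
-/

open CategoryTheory MonoidalCategory MonObj Limits Pretriangulated

set_option linter.unusedSectionVars false

universe u

noncomputable section

namespace Vale.Agent.P251EJ59

open Vale.Agent.P251 Vale.Agent.P251.S Vale.Agent.P251.T Vale.Agent.P251.M Vale.Agent.P251.F
  Vale.Agent.P251.I Vale.Agent.P251EJ Vale.Agent.P251EJ13 Vale.Agent.P251.X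

variable {𝒯 : Type u} [Category.{0} 𝒯] [Preadditive 𝒯] [HasZeroObject 𝒯]
    [HasShift 𝒯 ℤ] [∀ n : ℤ, (shiftFunctor 𝒯 n).Additive] [Pretriangulated 𝒯] [IsTriangulated 𝒯]
    [MonoidalCategory 𝒯] [SymmetricCategory 𝒯] [TensorTriangulated 𝒯] [MonoidalClosed 𝒯]
    [HasCoproducts.{0} 𝒯] [HasProducts.{0} 𝒯] [StableCat 𝒯]

/-- the rationalisation of an object with torsion homotopy groups is zero -/
theorem isZero_tel {C : 𝒯} (h : Tors C) (U : Tel (X := fun _ => C) (mulSeq C)) : IsZero U.obj := by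
  refine StableCat.generator _ fun k g => ?_
  obtain ⟨n, a, rfl⟩ := U.exists_factor (cpt_sphere k) g
  obtain ⟨m, hm, h1⟩ := h k a
  obtain ⟨c, hc⟩ : m ∣ (((n + 1).ascFactorial m.natAbs : ℕ) : ℤ) := by
    rw [← Int.natAbs_dvd, Int.natCast_dvd_natCast]
    exact (Nat.dvd_factorial (Int.natAbs_pos.2 hm) le_rfl).trans
      (Nat.factorial_dvd_ascFactorial _ _)
  rw [← smul_ι U n m.natAbs, hc, Preadditive.comp_zsmul, mul_comm, mul_smul,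
    ← Preadditive.zsmul_comp, h1, zero_comp, smul_zero]

theorem trT_tens (C X : 𝒯) (n k : ℕ) :
    trT (X := fun _ => C ⊗ X) (fun j => mulSeq C j ▷ X) n k =
      (((n + 1).ascFactorial k : ℕ) : ℤ) • 𝟙 (C ⊗ X) := by
  have h : (fun j => mulSeq C j ▷ X) = mulSeq (C ⊗ X) := by
    funext j
    have h1 := (tensorRight X).map_zsmul (r := ((j + 1 : ℕ) : ℤ)) (f := 𝟙 C)
    rw [CategoryTheory.Functor.map_id] at h1
    exact h1
  rw [h, trT_mulSeq]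

/-- torsion homotopy groups are inherited by all tensor products -/
theorem tors_tensor {C : 𝒯} (h : Tors C) (X : 𝒯) : Tors (C ⊗ X) := by
  intro k g
  let U : Tel (X := fun _ => C) (mulSeq C) := tel _
  have hz : U.ι 0 = 0 := (isZero_tel h U).eq_of_tgt _ _
  obtain ⟨j, hj⟩ := (U.tensR X).exists_eq_zero (cpt_sphere k) (n := 0) g (by
    rw [Tel.tensR_ι, hz]
    have h1 : (0 : C ⟶ U.obj) ▷ X = 0 := (tensorRight X).map_zero _ _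
    rw [h1]
    exact comp_zero)
  rw [trT_tens, Preadditive.comp_zsmul, Category.comp_id] at hj
  exact ⟨_, asc_ne 0 j, hj⟩

/-- **the kernel of `π_* X → π_*(K ⊗ X)` is torsion**, every `X` -/
theorem rat_ker' (F : SpaceFunctor 𝒯) {K : 𝒯} [MonObj K] (hS : Serre 𝒯) (hK : HQ K) (X : 𝒯)
    (k : ℤ) (f : (𝟙_ 𝒯)⟦k⟧ ⟶ X) (hf : f ≫ (λ_ X).inv ≫ (η[K] ▷ X) = 0) :
    ∃ m : ℤ, m ≠ 0 ∧ m • f = 0 := by
  obtain ⟨C, i, δ, hT⟩ := distinguished_cocone_triangle₁ (η[K] : 𝟙_ 𝒯 ⟶ K)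
  have h0 : (f ≫ (λ_ X).inv) ≫ (η[K] ▷ X) = 0 := by rw [Category.assoc]; exact hf
  obtain ⟨g, hg⟩ : ∃ g : (𝟙_ 𝒯)⟦k⟧ ⟶ C ⊗ X, f ≫ (λ_ X).inv = g ≫ (i ▷ X) :=
    Triangle.coyoneda_exact₂ _ (tensR_dist X hT) _ h0
  obtain ⟨m, hm, h1⟩ := tors_tensor (tors_fib F hS hK hT) X k g
  refine ⟨m, hm, ?_⟩
  rw [← cancel_mono (λ_ X).inv, Preadditive.zsmul_comp, hg, zero_comp, ← Preadditive.zsmul_comp,
    h1, zero_comp]

/-- **the cokernel of `π_* X → π_*(K ⊗ X)` is torsion**, every `X` -/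
theorem rat_coker' (F : SpaceFunctor 𝒯) {K : 𝒯} [MonObj K] (hS : Serre 𝒯) (hK : HQ K) (X : 𝒯)
    (k : ℤ) (g : (𝟙_ 𝒯)⟦k⟧ ⟶ K ⊗ X) :
    ∃ (m : ℤ) (f : (𝟙_ 𝒯)⟦k⟧ ⟶ X), m ≠ 0 ∧ m • g = f ≫ (λ_ X).inv ≫ (η[K] ▷ X) := by
  obtain ⟨C, i, δ, hT⟩ := distinguished_cocone_triangle₁ (η[K] : 𝟙_ 𝒯 ⟶ K)
  have hT' := tensR_dist X hT
  obtain ⟨m, hm, h1⟩ := (tors_tensor (tors_fib F hS hK hT) X).shift 1 k (g ≫ tensRδ δ X)
  have h0 : (m • g) ≫ tensRδ δ X = 0 := by rw [Preadditive.zsmul_comp]; exact h1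
  obtain ⟨f, hf⟩ : ∃ f : (𝟙_ 𝒯)⟦k⟧ ⟶ 𝟙_ 𝒯 ⊗ X, m • g = f ≫ (η[K] ▷ X) :=
    Triangle.coyoneda_exact₃ _ hT' _ h0
  refine ⟨m, f ≫ (λ_ X).hom, hm, ?_⟩
  rw [Category.assoc, Iso.hom_inv_id_assoc]
  exact hf

variable (𝒯) in
/-- row E1 -/
theorem ratInj : Vale.Agent.P251EJ76.RatInj 𝒯 :=
  fun F _ _ _ hS hK X n y hy => rat_ker' F hS ⟨hK.conc, hK.ne, hK.div, hK.gen⟩ X n y hy

end Vale.Agent.P251EJ59
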